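import Vale.Agent.P216HL.Top
import Vale.Agent.P216TE.Master

/-! Half lives, half dies: the side of a torus has first cohomology. -/

set_option linter.all false

open Set Filter Topology Metric Finsupp

namespace Vale.Agent.P216HL

open Vale.Agent.P216 Vale.Agent.P216.H126T Vale.Agent.P216M Vale.Agent.P216T Vale.Agent.P216TE
open Vale.Agent.P216.Sl Vale.Agent.P216.PS
open Vale.Agent.P216.N929 (Fine Coc Cy Tau bd_eq_zero not_ex_iff)

variable {k : Type} [Field k] {N : Type} [MetricSpace N]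

theorem len4 {l : List N} (h : l.length = 4) : ∃ a b d e, l = [a, b, d, e] := by
  match l, h with
  | [a, b, d, e], _ => exact ⟨a, b, d, e, rfl⟩

/-- linking with a loop: the algebraic core -/
theorem link [CompactSpace N] [ConnectedSpace N] (loc : Ch2.D246.LocEuc N 3) {w : List N → k}
    (hw : CocL univ 3 w) (hw0 : ¬ ExL univ 3 w) {K B U V V' : Set N} (hK : IsCompact K)
    (hB : IsCompact B) (hU : IsOpen U) (hV : IsOpen V) (hV' : IsOpen V') (hKV : K ⊆ V)
    (hBU : B ⊆ U) (hBV : B ⊆ V') (hUV : Disjoint U V) (H : HasSec V (Multiplicative k))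
    (H' : HasSec V' (Multiplicative k)) {u η : List N → k} {ε : ℝ} (hε : 0 < ε) (hN : Nrm u)
    (hu : Coc univ ε 2 u) (u0 : ∀ l, (∀ x ∈ l, x ∈ U) → u l = 0)
    (u1 : ∀ p q r, dist q r < ε → r ∉ K → u [p, q, r] = 0)
    (u2 : ∀ l, l.length = 3 → Fine V' ε l → u l = dl η l) :
    ∃ δ > 0, ∀ β ∈ Sp k (fun l => l.length = 2 ∧ Fine B δ l), bd β = 0 → ev η β = 0 := by
  haveI := lc_of_loc loc
  obtain ⟨δ₂, p₂, q₂⟩ := exists_margin hB hU hBU
  obtain ⟨ρ, ρ0, ρ1, ρ2⟩ : ∃ ρ > 0, 4 * ρ ≤ ε ∧ 2 * ρ ≤ δ₂ := ⟨min (ε / 4) (δ₂ / 2), by positivity,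
    by linarith [min_le_left (ε / 4) (δ₂ / 2)], by linarith [min_le_right (ε / 4) (δ₂ / 2)]⟩
  obtain ⟨τ, hτ⟩ := Ch2.D246.exists_tau (Ch2.ok _) (by norm_num) loc hw hw0 ρ0
  obtain ⟨y₀⟩ : Nonempty N := inferInstance
  obtain ⟨gτ, -, ετ, hετ, hτ⟩ := hτ y₀
  obtain ⟨δ₃, p₃, q₃⟩ := exact_one hV H hK hKV τ.hε
  obtain ⟨r, hr, r1, r2, r3, r4⟩ : ∃ r > 0, r ≤ δ₃ ∧ r ≤ τ.ε ∧ r ≤ ετ ∧ r ≤ ρ :=
    ⟨min (min δ₃ τ.ε) (min ετ ρ), lt_min (lt_min p₃ τ.hε) (lt_min hετ ρ0),
      (min_le_left _ _).trans (min_le_left _ _), (min_le_left _ _).trans (min_le_right _ _),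
      (min_le_right _ _).trans (min_le_left _ _), (min_le_right _ _).trans (min_le_right _ _)⟩
  have r5 : r ≤ ε := by linarith
  obtain ⟨z, hz, hzw⟩ := not_ex_iff.1 hw0 r hr
  have hbz : bd z = 0 := bd_eq_zero hz (by norm_num)
  have hs : ∀ y, ev (slc τ.f y) z = ev w z := fun y => by
    have h1 : ev (fun l => slc τ.f y₀ l + (-1) * w l) z = 0 := by
      rw [ev_congr (g := dl gτ) (fun l hl => ?_) hz.1, ev_dl, hbz, map_zero]
      rw [← hτ l hl.1 (hl.2.mono subset_rfl r3), slc]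
      ring
    rw [ev_add_fun, ev_smul_fun] at h1
    have h2 : ev (slc τ.f y) z = ev (slc τ.f y₀) z :=
      slice_const (by norm_num) τ.hε r2 τ.coc hz y y₀
    have h3 : ev (fun l => slc τ.f y₀ l) z = ev (slc τ.f y₀) z := rfl
    linear_combination h2 + h1 - h3
  obtain ⟨δ₄, p₄, q₄⟩ := exact_one hV' H' hB hBV hr
  refine ⟨min δ₄ r, lt_min p₄ hr, fun β hβ hb => ?_⟩
  obtain ⟨c, hc, rfl⟩ := exists_bd (V := V') (m := 1) (ε := r) (β := β) fun f hf =>
    q₄ f hf β (Sp_mono (fun l hl => by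
      obtain ⟨x, y, rfl⟩ := List.length_eq_two.1 hl.1
      exact ⟨x, hl.2.1 x (by simp), y, (hl.2.2 x (by simp) y (by simp)).trans_le (min_le_left _ _),
        rfl⟩) hβ) hb
  have hm := master (n := 3) (q := 2) (by norm_num) (by norm_num) τ.coc τ.supp hN hu r2
    (by linarith) hz.1 (Sp_mono (fun l hl => ⟨⟨hl.1, hl.2.mono (subset_univ _) le_rfl⟩,
      fun y _ => hs y⟩) hc)
  have e1 : ev (N929.fib c τ.f) (cap 2 u z) = 0 := by
    refine q₃ _ (fun l hl hf => ?_) _ (map_mem _ (fun s hs => ?_) hz.1) (bd_cap (q := 2) (n := 3)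
      le_rfl (P := fun l : List N => l.length = 3 + 1 ∧ Fine univ r l) (fun l hl => hl.1)
      (fun l hl => hu _ (by rw [List.length_take, hl.1]; rfl)
        ((hl.2.sub fun x hx => List.mem_of_mem_take hx).mono subset_rfl r5)) hz.1 hbz)
    · rw [dl_fib' (p := 1) (q := 2) (Sp_mono (fun l hl => hl.1) hc) _ hl, N929.fib_eq_zero hc
        fun t ht l' hl' => τ.coc l' (by have := hl'.1; rw [hl, ht.1] at this; omega)
          (fine_prod (hf.mono (subset_univ _) le_rfl) (ht.2.mono (subset_univ _) le_rfl) le_rfl r2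
            hl'), ev_zero_of (fun l' hl' => τ.supp l' hl') (sh_mem (fun s t l' hs ht hl' => ?_)
          (single_mem (P := fun s => s = l) rfl 1) hβ), mul_zero, add_zero]
      subst hs
      obtain ⟨p, hp⟩ := List.exists_mem_of_length_pos (l := l')
        (by have := hl'.1; rw [hl, ht.1] at this; omega)
      refine ⟨p, hp, not_lt.1 fun e => disjoint_left.1 hUV (q₂ _ (ht.2.1 _ (hl'.2 p hp).2) p.1 ?_)
        (hf.1 _ (hl'.2 p hp).1)⟩
      rw [dist_comm]
      linarith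
    · obtain ⟨a, b, d, e, rfl⟩ := len4 hs.1
      rw [cap_single]
      by_cases hd : d ∈ K
      · exact single_mem ⟨d, hd, e, (hs.2.2 d (by simp) e (by simp)).trans_le r1, rfl⟩ _
      · rw [show u (List.take (2 + 1) [a, b, d, e]) = 0 from
          u1 a b d ((hs.2.2 b (by simp) d (by simp)).trans_le r5) hd, single_zero]
        exact zero_mem _
  have e2 : ev (N929.cup (2 - 1) (pru u) τ.f) (sh z (bd c)) = 0 := by
    refine ev_zero_of (fun _ h => h) (sh_mem (fun s t l hs ht hl => ?_) hz.1 hβ)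
    by_contra h0
    obtain ⟨h1, h2⟩ := mul_ne_zero_iff.1 h0
    obtain ⟨p, hp⟩ := List.exists_mem_of_length_pos (l := l.drop (2 - 1))
      (by have := hl.1; rw [hs.1, ht.1] at this; rw [List.length_drop]; omega)
    have h3 : dist p.1 p.2 < ρ := not_le.1 fun e => h2 (τ.supp _ ⟨p, hp, e⟩)
    have h4 := hl.2 p (List.mem_of_mem_drop hp)
    refine h1 (ev_zero_of (fun l' hl' => u0 l' fun x hx => ?_) (prc_mem _))
    obtain ⟨p', hp', e⟩ := hl'.2 x hx
    have h5 := hl.2 p' (List.mem_of_mem_take hp')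
    refine q₂ _ (ht.2.1 _ h4.2) x ?_
    rcases e with rfl | rfl
    · linarith [dist_triangle_left p.2 p'.1 p.1, hs.2.2 _ h4.1 _ h5.1]
    · linarith [ht.2.2 _ h4.2 _ h5.2, min_le_right δ₄ r]
  rw [e1, e2, hbz, map_zero, ev_congr (fun l hl => u2 l hl.1 (hl.2.mono subset_rfl r5)) hc,
    ev_dl] at hm
  refine (mul_eq_zero.1 ?_).resolve_left hzw
  linear_combination -hm

/-- **Half lives, half dies.** -/
theorem hlpd [CompactSpace N] [ConnectedSpace N] (loc : P216.Ch2.D246.LocEuc N 3) {w : List N → k}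
    (hw : CocL univ 3 w) (hw0 : ¬ ExL univ 3 w) {psi : (ℝ × ℝ) × ℝ → N} {a b : ℝ} (hab : a < b)
    (hc : P216T.Collar psi a b) (h : ∀ c, a < c → c < b →
      ∃ U V, P216T.SepT psi a c b U V ∧ P216M.HasSec V (Multiplicative k)) : False := by
  classical
  obtain ⟨s, h1, h7⟩ := exists_between hab
  obtain ⟨m, h2, h7⟩ := exists_between h7
  obtain ⟨t, h3, h7⟩ := exists_between h7
  obtain ⟨c, h4, h7⟩ := exists_between h7
  obtain ⟨c₀, h5, h7⟩ := exists_between h7
  obtain ⟨c', h6, h7⟩ := exists_between h7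
  obtain ⟨U, V, S, -⟩ := h m (by linarith) (by linarith)
  obtain ⟨U₃, V₃, S₃, H₃⟩ := h c (by linarith) (by linarith)
  obtain ⟨U₄, V₄, S₄, H₄⟩ := h c' (by linarith) h7
  obtain ⟨y, y0, ⟨ε, hε, y1⟩, y2⟩ := exists_coc (k := k) hc h1 h7
  obtain ⟨δ, hδ, e⟩ := near_level hc h1 h2 h3 (by linarith) S
  set χ : N → k := fun x => if x ∈ U then 1 else 0 with hχ
  have x1 : ∀ x ∈ U, χ x = 1 := fun x hx => if_pos hx
  have x2 : ∀ q r, dist q r < min ε δ → χ q = χ r ∨ r ∈ band psi s t ∧ q ∈ band psi s t := by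
    intro q r hqr
    replace hqr := hqr.trans_le (min_le_right _ _)
    by_cases hq : q ∈ U <;> by_cases hr : r ∈ U
    · exact .inl (by rw [x1 q hq, x1 r hr])
    · exact .inr (e q hq r hr hqr).symm
    · exact .inr (e r hr q hq (dist_comm q r ▸ hqr))
    · exact .inl (by simp [hχ, hq, hr])
  have b1 : ∀ {s' t'}, s ≤ s' → t' ≤ c' → band psi s' t' ⊆ band psi s c' := fun i j =>
    image_mono fun p hp => ⟨i.trans hp.1, hp.2.trans j⟩
  have b2 : ∀ {i j s' t' W}, i < s' → t' < j → MapsTo psi (slab i j) W → band psi s' t' ⊆ W := by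
    rintro i j s' t' W e1 e2 e3 _ ⟨p, hp, rfl⟩
    exact e3 ⟨e1.trans_le hp.1, hp.2.trans_lt e2⟩
  have b3 : band psi c₀ c₀ ⊆ U := b2 (by linarith) (by linarith) S.mU
  have fn : ∀ {X : Set N} {l}, Fine X (min ε δ) l → ∀ p ∈ l, ∀ q ∈ l, dist p q < ε := fun hf p hp q hq =>
    (hf.2 p hp q hq).trans_le (min_le_left _ _)
  refine (link loc hw hw0 (band_cpt hc h1 (t := t) (by linarith))
    (band_cpt hc (s := c₀) (t := c₀) (by linarith) (by linarith)) (S.oU.inter S₃.oU) S₃.oV S₄.oV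
    (b2 h1 h4 S₃.mV) (subset_inter b3 (b2 h5 (by linarith) S₃.mU)) (b2 (by linarith) h6 S₄.mV)
    (S₃.disj.mono_left inter_subset_right) H₃ H₄ (u := c3 fun p q r => y p q * (χ q - χ r))
    (η := c2 fun p q => y p q * χ q) (lt_min hε hδ)
    (nrm_c3 (fun _ _ => by rw [y0, zero_mul]) fun _ _ => by rw [sub_self, mul_zero])
    (fun l hl hf => ?_) (fun l hl => ?_) (fun p q r hqr hr => ?_) fun l hl hf => ?_).elim
    fun δ' ⟨hδ', key⟩ => ?_
  rotate_right
  · obtain ⟨β, i1, i2, i3⟩ := y2 c₀ (by linarith) (by linarith) δ' hδ'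
    refine one_ne_zero (i3.symm.trans ((ev_congr (fun l hl => ?_) i1).trans (key β i1 i2)))
    obtain ⟨p, q, rfl⟩ := List.length_eq_two.1 hl.1
    show y p q = y p q * χ q
    rw [x1 q (b3 (hl.2.1 q (by simp))), mul_one]
  · obtain ⟨p, q, r, v, rfl⟩ := len4 hl
    rw [dl_quad]
    show y q r * (χ r - χ v) - y p r * (χ r - χ v) + y p q * (χ q - χ v) - y p q * (χ q - χ r) = 0
    rcases x2 r v (hf.2 r (by simp) v (by simp)) with i | i
    · rw [i]; ring
    · rw [← y1 r (b1 le_rfl (by linarith) i.2) p q r (fn hf r (by simp) p (by simp))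
        (fn hf r (by simp) q (by simp)) (fn hf r (by simp) r (by simp))]
      ring
  · match l, hl with
    | [], _ => rfl
    | [_], _ => rfl
    | [_, _], _ => rfl
    | [p, q, r], hl =>
      show y p q * (χ q - χ r) = 0
      rw [x1 q (hl q (by simp)).1, x1 r (hl r (by simp)).1, sub_self, mul_zero]
    | _ :: _ :: _ :: _ :: _, _ => rfl
  · show y p q * (χ q - χ r) = 0
    rw [(x2 q r hqr).resolve_right fun i => hr i.1, sub_self, mul_zero]
  · obtain ⟨p, q, r, rfl⟩ := List.length_eq_three.1 hl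
    rw [dl_triple]
    show y p q * (χ q - χ r) = y q r * χ r - y p r * χ r + y p q * χ q
    by_cases hr : r ∈ U
    · rw [← y1 r (b1 h2.le le_rfl (mem_band hc (by linarith) (by linarith) h7 S S₄
        (disjoint_left.1 S.disj hr) (disjoint_right.1 S₄.disj (hf.1 r (by simp))))) p q r
        (fn hf r (by simp) p (by simp)) (fn hf r (by simp) q (by simp))
        (fn hf r (by simp) r (by simp))]
      ring
    · rw [show χ r = 0 from if_neg hr]
      ring

end Vale.Agent.P216HL
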