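import Vale.Agent.P216T.Defs
import Vale.Agent.P216M.Star

/-! Torus collars: bands, the angle cocycle, and vanishing of one-cocycles at a uniform scale. -/

set_option linter.all false

open Set Filter Topology Metric Finsupp

namespace Vale.Agent.P216HL

open Vale.Agent.P216 Vale.Agent.P216.H126T Vale.Agent.P216M Vale.Agent.P216T
open Vale.Agent.P216.Sl Vale.Agent.P216.PS
open Vale.Agent.P216.N929 (Fine Coc Cy)

theorem lc_of_loc {N : Type} [TopologicalSpace N] {n : ℕ} (loc : Ch2.D246.LocEuc N n) :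
    LocallyConnectedSpace N := by
  refine locallyConnectedSpace_iff_connected_subsets.2 fun x U hU => ?_
  obtain ⟨c, h1, h2⟩ := loc x
  have h3 : {y | y ∈ c.D ∧ ‖c.φ y‖ < 2} ∈ 𝓝 x := c.open_int.mem_nhds ⟨h1, by simp [h2]⟩
  have h4 : {y : Fin n → ℝ | ‖y‖ ≤ 2} ∈ 𝓝 0 :=
    mem_of_superset (closedBall_mem_nhds 0 two_pos) fun y hy => mem_closedBall_zero_iff.1 hy
  have h5 : c.ψ ⁻¹' U ∈ 𝓝 0 := c.ψ_cont.continuousAt h4 (by rwa [← h2, c.ψφ x h1])
  obtain ⟨η, h6, h7⟩ := Metric.mem_nhds_iff.1 (inter_mem h4 h5)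
  have h8 : c.φ ⁻¹' ball 0 η ∈ 𝓝 x :=
    c.φ_cont.continuousAt (mem_of_superset h3 fun y hy => hy.1) (h2.symm ▸ ball_mem_nhds 0 h6)
  exact ⟨c.ψ '' ball 0 η, mem_of_superset (inter_mem h3 h8) fun y hy => ⟨_, hy.2, c.ψφ y hy.1.1⟩,
    (convex_ball _ _).isPreconnected.image _ (c.ψ_cont.mono fun y hy => (h7 hy).1),
    image_subset_iff.2 fun y hy => (h7 hy).2⟩

variable {k : Type} [Field k] {N : Type} [MetricSpace N] {ψ : (ℝ × ℝ) × ℝ → N} {a b c s t : ℝ}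
  {U V U' V' K : Set N}

theorem exists_margin (hK : IsCompact K) (hV : IsOpen V) (h : K ⊆ V) :
    ∃ δ > 0, ∀ x ∈ K, ∀ y, dist x y < δ → y ∈ V := by
  obtain ⟨δ, h1, h2⟩ := hK.exists_thickening_subset_open hV h
  exact ⟨δ, h1, fun x hx y hy => h2 (mem_thickening_iff.2 ⟨x, hx, by rwa [dist_comm]⟩)⟩

/-- the closed band between two levels -/
def band (ψ : (ℝ × ℝ) × ℝ → N) (s t : ℝ) : Set N := ψ '' {p | p.2 ∈ Icc s t}

theorem band_cpt (h : Collar ψ a b) (hs : a < s) (ht : t < b) : IsCompact (band ψ s t) := by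
  have h1 : ∀ p : (ℝ × ℝ) × ℝ, p.2 ∈ Icc s t → p ∈ slab a b := fun p hp =>
    ⟨hs.trans_le hp.1, hp.2.trans_lt ht⟩
  have h2 := ((isCompact_Icc (a := (0 : ℝ)) (b := 1)).prod (isCompact_Icc (a := (0 : ℝ))
    (b := 1))).prod (isCompact_Icc (a := s) (b := t))
  convert h2.image_of_continuousOn (h.cont.mono fun p hp => h1 p hp.2)
  refine Subset.antisymm ?_ (image_mono fun p hp => hp.2)
  rintro _ ⟨p, hp, rfl⟩
  refine ⟨((Int.fract p.1.1, Int.fract p.1.2), p.2), ⟨⟨⟨Int.fract_nonneg _, (Int.fract_lt_one _).le⟩,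
    Int.fract_nonneg _, (Int.fract_lt_one _).le⟩, hp⟩, (h.eq_iff _
    (h1 ((Int.fract p.1.1, Int.fract p.1.2), p.2) hp) _ (h1 p hp)).2
    ⟨⌊p.1.1⌋, ⌊p.1.2⌋, ?_⟩⟩
  simp

theorem isOpen_slab : IsOpen (slab a b) :=
  (isOpen_lt continuous_const continuous_snd).inter (isOpen_lt continuous_snd continuous_const)

/-- what lies above the level `s` and below the level `t` lies in the band -/
theorem mem_band [PreconnectedSpace N] (h : Collar ψ a b) (hs : a < s) (hst : s ≤ t) (ht : t < b)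
    (S : SepT ψ a s b U V) (S' : SepT ψ a t b U' V') {x : N} (h1 : x ∉ V) (h2 : x ∉ U') :
    x ∈ band ψ s t := by
  have key : ∀ y ∈ ψ '' slab a b, y ∉ V → y ∉ U' → y ∈ band ψ s t := by
    rintro _ ⟨p, hp, rfl⟩ e1 e2
    exact ⟨p, ⟨not_lt.1 fun e => e1 (S.mV ⟨hp.1, e⟩), not_lt.1 fun e => e2 (S'.mU ⟨e, hp.2⟩)⟩, rfl⟩
  have e : (V ∪ U' ∪ ψ '' slab a b)ᶜ = U ∩ V' ∩ (band ψ s t)ᶜ := by
    ext y
    simp only [mem_compl_iff, mem_union, mem_inter_iff, not_or]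
    refine ⟨fun ⟨⟨e1, e2⟩, e3⟩ => ⟨⟨?_, ?_⟩, fun ⟨p, hp, e⟩ =>
      e3 ⟨p, ⟨hs.trans_le hp.1, hp.2.trans_lt ht⟩, e⟩⟩, fun ⟨⟨e1, e2⟩, e3⟩ => ?_⟩
    · exact (S.cov y).elim id fun e => e.elim (absurd · e1) fun ⟨v, hv⟩ =>
        absurd ⟨(v, s), ⟨hs, hst.trans_lt ht⟩, hv⟩ e3
    · exact ((S'.cov y).resolve_left e2).elim id fun ⟨v, hv⟩ =>
        absurd ⟨(v, t), ⟨hs.trans_le hst, ht⟩, hv⟩ e3
    · have e4 := disjoint_left.1 S.disj e1
      have e5 := disjoint_right.1 S'.disj e2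
      exact ⟨⟨e4, e5⟩, fun e => e3 (key y e e4 e5)⟩
  have hc : IsClopen (V ∪ U' ∪ ψ '' slab a b)ᶜ :=
    ⟨((S.oV.union S'.oU).union (h.img _ Subset.rfl isOpen_slab)).isClosed_compl,
      e ▸ (S.oU.inter S'.oV).inter (band_cpt h hs ht).isClosed.isOpen_compl⟩
  rcases isClopen_iff.1 hc with e' | e'
  · rcases compl_empty_iff.1 e' ▸ mem_univ x with (e1 | e1) | e1
    exacts [absurd e1 h1, absurd e1 h2, key x e1 h1 h2]
  · exact absurd (e' ▸ mem_univ (ψ (0, s))) (not_not.2 (.inr ⟨_, ⟨hs, hst.trans_lt ht⟩, rfl⟩))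

/-- close points on different sides of the level `c` are close to it -/
theorem near_level [CompactSpace N] (h : Collar ψ a b) (hs : a < s) (hsc : s < c) (hct : c < t)
    (ht : t < b) (S : SepT ψ a c b U V) :
    ∃ δ > 0, ∀ x ∈ U, ∀ y ∉ U, dist x y < δ → x ∈ band ψ s t ∧ y ∈ band ψ s t := by
  have hO := h.img (slab s t) (fun p hp => ⟨hs.trans hp.1, hp.2.trans ht⟩) isOpen_slab
  have hb : ψ '' slab s t ⊆ band ψ s t := image_mono fun p hp => ⟨hp.1.le, hp.2.le⟩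
  have hT : ∀ v, ψ (v, c) ∈ ψ '' slab s t := fun v => ⟨_, ⟨hsc, hct⟩, rfl⟩
  obtain ⟨δ, p, q⟩ := exists_margin (S.oV.union hO).isClosed_compl.isCompact S.oU fun y hy =>
    (S.cov y).elim id fun e => absurd (e.imp id fun ⟨v, hv⟩ => hv ▸ hT v) hy
  obtain ⟨δ', p', q'⟩ := exists_margin (S.oU.union hO).isClosed_compl.isCompact S.oV fun y hy =>
    (S.cov y).elim (fun e => absurd (.inl e) hy) fun e => e.elim id fun ⟨v, hv⟩ =>
      absurd (.inr (hv ▸ hT v)) hy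
  refine ⟨min δ δ', lt_min p p', fun x hx y hy e => ⟨hb (by_contra fun e1 => hy (q x ?_ y
    (e.trans_le (min_le_left _ _)))), hb (by_contra fun e1 => disjoint_left.1 S.disj hx (q' y ?_ x
    (dist_comm x y ▸ e.trans_le (min_le_right _ _))))⟩⟩
  · exact fun e2 => e2.elim (disjoint_left.1 S.disj hx) e1
  · exact fun e2 => e2.elim hy e1

/-- the second angle of the collar -/
theorem exists_angle (h : Collar ψ a b) : ∃ θ : N → ℝ, (∀ p ∈ slab a b, ∃ n : ℤ,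
    θ (ψ p) = p.1.2 - n) ∧ ∀ x ∈ ψ '' slab a b, ContinuousAt (fun y => (θ y : UnitAddCircle)) x := by
  have h1 : ∀ p ∈ slab a b, ∃ n : ℤ, (Function.invFunOn ψ (slab a b) (ψ p)).1.2 = p.1.2 - n :=
    fun p hp => by
      obtain ⟨e1, e2⟩ := Function.invFunOn_pos (f := ψ) (s := slab a b) ⟨p, hp, rfl⟩
      obtain ⟨m, n, e⟩ := (h.eq_iff _ e1 _ hp).1 e2
      exact ⟨n, eq_sub_of_add_eq (congrArg (fun q => q.1.2) e).symm⟩
  have h2 : ∀ p ∈ slab a b, (((Function.invFunOn ψ (slab a b) (ψ p)).1.2 : ℝ) : UnitAddCircle) =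
      (p.1.2 : ℝ) := fun p hp => by
    obtain ⟨n, e⟩ := h1 p hp
    rw [e, AddCircle.coe_sub, sub_eq_self, AddCircle.coe_eq_zero_iff]
    exact ⟨n, by simp⟩
  refine ⟨fun y => (Function.invFunOn ψ (slab a b) y).1.2, h1, ?_⟩
  rintro _ ⟨p, hp, rfl⟩ W hW
  replace hW : W ∈ 𝓝 ((p.1.2 : ℝ) : UnitAddCircle) := h2 p hp ▸ hW
  have h3 : Continuous fun q : (ℝ × ℝ) × ℝ => ((q.1.2 : ℝ) : UnitAddCircle) :=
    (AddCircle.continuous_mk' 1).comp (by fun_prop)
  obtain ⟨O, e1, e2, e3⟩ := _root_.mem_nhds_iff.1 (inter_mem (isOpen_slab.mem_nhds hp)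
    (h3.continuousAt hW))
  refine mem_map.2 (mem_of_superset
    ((h.img O (fun q hq => (e1 hq).1) e2).mem_nhds ⟨p, e3, rfl⟩) ?_)
  rintro _ ⟨q, hq, rfl⟩
  show (((Function.invFunOn ψ (slab a b) (ψ q)).1.2 : ℝ) : UnitAddCircle) ∈ W
  rw [h2 q (e1 hq).1]
  exact (e1 hq).2

theorem round_co {x y : ℝ} (h1 : |x - round x| < 1 / 6) (h2 : |y - round y| < 1 / 6) :
    round (x + y) = round x + round y := by
  rw [abs_lt] at h1 h2
  rw [round_eq (x + y), Int.floor_eq_iff]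
  push_cast
  constructor <;> linarith

/-- the angle cocycle and the loops on which it does not vanish -/
theorem exists_coc (h : Collar ψ a b) (hs : a < s) (ht : t < b) : ∃ y : N → N → k,
    (∀ x, y x x = 0) ∧ (∃ ε > 0, ∀ x ∈ band ψ s t, ∀ p q r, dist x p < ε → dist x q < ε →
      dist x r < ε → y p q + y q r = y p r) ∧ ∀ c, a < c → c < b → ∀ δ > 0, ∃ β : Ch k N,
      β ∈ Sp k (fun l => l.length = 2 ∧ Fine (band ψ c c) δ l) ∧ bd β = 0 ∧ ev (c2 y) β = 1 := by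
  obtain ⟨θ, h1, h2⟩ := exists_angle h
  refine ⟨fun p q => (round (θ p - θ q) : ℤ), fun x => by simp, ?_, fun c hc hc' δ hδ => ?_⟩
  · obtain ⟨ε, hε, e⟩ := Metric.mem_uniformity_dist.1
      ((band_cpt h hs ht).uniformContinuousAt_of_continuousAt _ (fun x ⟨p, hp, e⟩ =>
        h2 x ⟨p, ⟨hs.trans_le hp.1, hp.2.trans_lt ht⟩, e⟩)
        (dist_mem_uniformity (show (0 : ℝ) < 1 / 12 by norm_num)))
    have key : ∀ x ∈ band ψ s t, ∀ p q, dist x p < ε → dist x q < ε →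
        |θ p - θ q - round (θ p - θ q)| < 1 / 6 := fun x hx p q hp hq => by
      have e1 : dist (θ x : UnitAddCircle) (θ p) < 1 / 12 := e hp hx
      have e2 : dist (θ x : UnitAddCircle) (θ q) < 1 / 12 := e hq hx
      rw [← UnitAddCircle.norm_eq, AddCircle.coe_sub, ← dist_eq_norm]
      linarith [dist_triangle_left (θ p : UnitAddCircle) (θ q) (θ x)]
    refine ⟨ε, hε, fun x hx p q r hp hq hr => ?_⟩
    rw [← Int.cast_add, ← round_co (key x hx p q hp hq) (key x hx q r hq hr), sub_add_sub_cancel]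
  have hsl : ∀ u : ℝ, (((0 : ℝ), u), c) ∈ slab a b := fun u => ⟨hc, hc'⟩
  have hγ : Continuous fun u : ℝ => ψ ((0, u), c) :=
    h.cont.comp_continuous (by fun_prop) hsl
  obtain ⟨η, hη, e⟩ := Metric.uniformContinuousOn_iff.1
    (isCompact_Icc.uniformContinuousOn_of_continuous (s := Icc (0 : ℝ) 1) hγ.continuousOn) δ hδ
  obtain ⟨M, hM⟩ := exists_nat_one_div_lt (lt_min hη (show (0 : ℝ) < 1 / 2 by norm_num))
  set d : ℝ := 1 / ((M : ℝ) + 1) with hd
  have d0 : 0 < d := by positivity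
  have d1 : ((M + 1 : ℕ) : ℝ) * d = 1 := by rw [hd]; push_cast; field_simp
  have e0 : ψ ((0, 0), c) = ψ ((0, 1), c) := (h.eq_iff _ (hsl 0) _ (hsl 1)).2 ⟨0, 1, by simp⟩
  choose n hn using fun u => h1 _ (hsl u)
  refine ⟨mp (fun u => ψ ((0, u), c)) (N929.mesh k d (M + 1)), map_mem _ ?_ (N929.mesh_mem d _), ?_, ?_⟩
  · rintro _ ⟨j, hj, rfl⟩
    have hI : ∀ i : ℕ, i ≤ M + 1 → (i : ℝ) * d ∈ Icc (0 : ℝ) 1 := fun i hi =>
      ⟨by positivity, d1 ▸ mul_le_mul_of_nonneg_right (by exact_mod_cast hi) d0.le⟩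
    have := e _ (hI j hj.le) _ (hI (j + 1) hj) (by
      rw [Real.dist_eq, abs_sub_comm]
      push_cast
      rw [show ((j : ℝ) + 1) * d - j * d = d by ring, abs_of_pos d0]
      exact hM.trans_le (min_le_left _ _))
    rw [mp_single]
    refine single_mem ⟨rfl, fun x hx => ?_, (fine_pair hδ this).2⟩ _
    obtain ⟨u, -, rfl⟩ := List.mem_map.1 hx
    exact ⟨_, ⟨le_rfl, le_rfl⟩, rfl⟩
  · rw [bd_mp, N929.bd_mesh, d1, map_sub, mp_single, mp_single]
    simp [e0]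
  · have key : ∀ j : ℕ, ev (c2 fun p q => ((round (θ p - θ q) : ℤ) : k))
        (mp (fun u => ψ ((0, u), c)) (N929.edge k d j)) =
        (n (((j + 1 : ℕ) : ℝ) * d) : k) - n ((j : ℝ) * d) := fun j => by
      rw [N929.edge, mp_single, ev_single, one_mul, ← Int.cast_sub]
      show ((round (θ (ψ ((0, _), c)) - θ (ψ ((0, _), c))) : ℤ) : k) = _
      congr 1
      rw [hn, hn, round_eq, Int.floor_eq_iff]
      have := hM.trans_le (min_le_right _ _)
      push_cast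
      constructor <;> linarith
    rw [N929.mesh, map_sum, map_sum, Finset.sum_congr rfl fun j _ => key j,
      Finset.sum_range_sub fun j : ℕ => (n ((j : ℝ) * d) : k), d1, Nat.cast_zero, zero_mul,
      ← Int.cast_sub, show n 1 - n 0 = 1 from ?_, Int.cast_one]
    have e1 := hn 0
    rw [e0, hn 1] at e1
    have : ((n 1 - n 0 : ℤ) : ℝ) = 1 := by push_cast; linarith
    exact_mod_cast this

/-- one-cocycles on `V` are exact near a compact part at a uniform scale -/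
theorem exact_one [CompactSpace N] [LocallyConnectedSpace N] (hV : IsOpen V)
    (HS : HasSec V (Multiplicative k)) (hK : IsCompact K) (hKV : K ⊆ V) {ε : ℝ} (hε : 0 < ε) :
    ∃ δ > 0, ∀ f : List N → k, Coc V ε 1 f → ∀ c ∈ Sp k (fun l => ∃ x ∈ K, ∃ y, dist x y < δ ∧
      l = [x, y]), bd c = 0 → ev f c = 0 := by
  obtain ⟨η, hη, e1⟩ := exists_margin hK hV hKV
  obtain ⟨δ, hδ, e2⟩ := exists_unif_conn (N := N) (lt_min hη (half_pos hε))
  refine ⟨δ, hδ, fun f hf c hc hb => ?_⟩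
  have co : ∀ i j l b : V, dist (b : N) i < ε / 2 → dist (b : N) j < ε / 2 →
      dist (b : N) l < ε / 2 → f [i, j] + f [j, l] = f [i, l] := fun i j l b h1 h2 h3 => by
    have := hf [i, j, l] rfl ⟨by simp, (fine_triple hε
      (by linarith [dist_triangle_left (i : N) j b]) (by linarith [dist_triangle_left (i : N) l b])
      (by linarith [dist_triangle_left (j : N) l b])).2⟩
    rw [dl_triple] at this
    linear_combination this
  obtain ⟨σ, s1, s2⟩ := HS V (fun i => ball i (ε / 2)) (fun _ => isOpen_ball)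
    (fun b => ⟨b, mem_ball_self (half_pos hε)⟩) (fun i j _ => Multiplicative.ofAdd (f [i, j]))
    (fun _ _ _ _ => Eventually.of_forall fun _ => rfl)
    (fun i b hb => by simpa using co i i i b hb hb hb)
    (fun i j l b hb => congrArg Multiplicative.ofAdd (co i j l b hb.1.1 hb.1.2 hb.2))
  classical
  rw [ev_congr (g := dl (c1 fun x => if hx : x ∈ V then -(σ ⟨x, hx⟩ ⟨x, hx⟩).toAdd else 0)) ?_ hc,
    ev_dl, hb, map_zero]
  rintro _ ⟨x, hx, y, hxy, rfl⟩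
  obtain ⟨W, w1, w2, w3, w4⟩ := e2 x y hxy
  have w5 : W ⊆ V := fun z hz => e1 x hx z (mem_ball'.1 (ball_subset_ball (min_le_left _ _) (w4 hz)))
  have w6 : ∀ z : V, (z : N) ∈ W → z ∈ ball (⟨x, w5 w2⟩ : V) (ε / 2) := fun z hz =>
    ball_subset_ball (min_le_right η _) (w4 hz)
  have w7 : σ ⟨x, w5 w2⟩ ⟨x, w5 w2⟩ = σ ⟨x, w5 w2⟩ ⟨y, w5 w3⟩ := by
    letI : TopologicalSpace (Multiplicative k) := ⊥
    haveI : DiscreteTopology (Multiplicative k) := ⟨rfl⟩
    refine (w1.preimage_of_isOpenMap Subtype.val_injective hV.isOpenMap_subtype_val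
      (by simpa using w5)).constant (fun z hz => ?_) w2 w3
    exact (continuousAt_const.congr ((s1 _ z (w6 z hz)).mono fun _ e => e.symm)).continuousWithinAt
  have w8 := congrArg Multiplicative.toAdd
    (s2 ⟨x, w5 w2⟩ ⟨y, w5 w3⟩ ⟨y, w5 w3⟩ ⟨w6 _ w3, mem_ball_self (half_pos hε)⟩)
  rw [← w7, toAdd_mul, toAdd_ofAdd] at w8
  rw [dl_pair]
  simp only [c1, dif_pos (w5 w2), dif_pos (w5 w3)]
  linear_combination -w8

/-- a chain killed by all fine cocycles is a boundary -/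
theorem exists_bd {m : ℕ} {ε : ℝ} {β : Ch k N} (h : ∀ f, Coc V ε m f → ev f β = 0) :
    ∃ c ∈ Sp k (fun l : List N => l.length = m + 2 ∧ Fine V ε l), bd c = β := by
  by_contra hcon
  obtain ⟨φ, hφ, hφ'⟩ := Submodule.exists_dual_map_eq_bot_of_notMem (show β ∉ (Sp k
    (fun l : List N => l.length = m + 2 ∧ Fine V ε l)).map bd from hcon) inferInstance
  have hev : ev (fun l : List N => φ (single l 1)) = φ :=
    lin_ext fun l => by rw [ev_single, one_mul]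
  refine hφ (hev ▸ h _ fun l hl hs => ?_)
  rw [dl, hev]
  exact (Submodule.mem_bot k).1 (hφ' ▸ ⟨_, ⟨_, single_mem ⟨hl, hs⟩ 1, rfl⟩, by
    rw [bd_single, one_smul]⟩)

end Vale.Agent.P216HL
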